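import Vale.Agent.P287Z.D.Defs

/-!
# Cubic fourfolds containing a plane: the definitions of the statement
(the five definitions are those of the hand-in `NetMorita`)
-/

open CategoryTheory AlgebraicGeometry MvPolynomial Matrix Vale.Agent.P294Z

universe w w'

namespace Vale.Agent.P287Z

/-- The weights `0, 0, 0, 1` of the four coordinates `y₀, y₁, y₂, 1`. -/
def weight : Fin 4 → ℕ := ![0, 0, 0, 1]

/-- `M` is the matrix of the quadric surface fibration of a cubic fourfold containing the plane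
`x₀ = x₁ = x₂ = 0`: it is symmetric and `M i j` is a form in `x₀, x₁, x₂` of degree
`1 + weight i + weight j`. -/
structure IsFibrationMatrix (M : Matrix (Fin 4) (Fin 4) (MvPolynomial (Fin 3) ℂ)) : Prop where
  symm : M.IsSymm
  homogeneous : ∀ i j, (M i j).IsHomogeneous (1 + weight i + weight j)

/-- The cubic form `∑ M i j (x₀, x₁, x₂) v_i v_j` with `v = (x₃, x₄, x₅, 1)`. -/
noncomputable def cubicForm (M : Matrix (Fin 4) (Fin 4) (MvPolynomial (Fin 3) ℂ)) :
    MvPolynomial (Fin 6) ℂ :=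
  ![X 3, X 4, X 5, 1] ⬝ᵥ ((M.map (aeval ![X 0, X 1, X 2])) *ᵥ ![X 3, X 4, X 5, 1])

/-- The form `F` is smooth: its first derivatives have no common zero but the origin. -/
def IsSmoothForm {n : ℕ} (F : MvPolynomial (Fin n) ℂ) : Prop :=
  ∀ z : Fin n → ℂ, (∀ i, eval z (pderiv i F) = 0) → z = 0

/-- The hypersurface `F = 0` is rational: its function field, in the chart `x₀ = 1`, is the field
of rational functions in four variables over `ℂ`. -/
def IsRationalForm (F : MvPolynomial (Fin 6) ℂ) : Prop :=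
  Nonempty (FractionRing (MvPolynomial (Fin 5) ℂ ⧸
      Ideal.span {aeval (Fin.cons 1 X : Fin 6 → MvPolynomial (Fin 5) ℂ) F}) ≃ₐ[ℂ]
    FractionRing (MvPolynomial (Fin 4) ℂ))

/-- **Theorem A** (the text of the hand-in) -/
def ThmA : Prop :=
  ∀ (M : Matrix (Fin 4) (Fin 4) (MvPolynomial (Fin 3) ℂ)) (_ : IsFibrationMatrix M)
    (_ : IsSmoothForm M.det) (F : MvPolynomial (Fin 6) ℂ) [Fact (F.IsHomogeneous 3)]
    (_ : F = cubicForm M) (_ : IsSmoothForm F)
    {ν : ℕ} (I : Ideal (MvPolynomial (Fin ν) ℂ)) [Fact (IsHom I)]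
    (_ : 1 ≤ topologicalKrullDim (PI I))
    [HasDerivedCategory.{w} (Coh (PI I))] [HasDerivedCategory.{w'} (Coh (PI (Ideal.span {F})))]
    (Φ : DbP I ⥤ DbP (Ideal.span {F})) [Φ.Additive] [Φ.Linear ℂ] [Φ.CommShift ℤ] [Φ.Full]
    [Φ.Faithful] (_ : ∀ E, Ku (Ideal.span {F}) (Φ.obj E)), IsRationalForm F

end Vale.Agent.P287Z
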