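import Vale.Agent.P287Z.St

/-!
# The Kuznetsov component: short definitions for the statement
-/

open CategoryTheory AlgebraicGeometry MvPolynomial Vale.Agent.P294Z Vale.Agent.P294.Stm

universe w w' v u

namespace Vale.Agent.P287Z

/-- `Hom(L, E[k]) = 0` for all `k` -/
def Orth {D : Type u} [Category.{v} D] [Abelian D] [HasDerivedCategory.{w} D] (L : D) (E : Db D) :
    Prop :=
  ∀ (k : ℤ) (f : (DerivedCategory.singleFunctor D 0).obj L ⟶ E.obj⟦k⟧), f = 0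

/-- there is a `ℂ`-linear fully faithful functor `D^b(C) ⥤ D^b(D)`, compatible with the shifts,
whose values `E` satisfy `Hom(L i, E[k]) = 0` for all `i`, `k` -/
def Emb (C D : Type u) [Category.{v} C] [Abelian C] [Linear ℂ C] [HasDerivedCategory.{w} C]
    [Category.{v} D] [Abelian D] [Linear ℂ D] [HasDerivedCategory.{w'} D] (L : Fin 3 → D) : Prop :=
  ∃ Φ : Db C ⥤ Db D, Φ.Additive ∧ Φ.Linear ℂ ∧ Nonempty (Φ.CommShift ℤ) ∧ Φ.Full ∧ Φ.Faithful ∧
    ∀ E i, Orth (L i) (Φ.obj E)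

/-- `D^b(Coh S)` embeds in the right orthogonal of the sheaves `L i` in `D^b(Coh X)` -/
def KuEmb (S X : Scheme.{0}) [IsLocallyNoetherian S] [S.Over (Spec (.of ℂ))]
    [HasDerivedCategory.{w} (Coh S)] [IsLocallyNoetherian X] [X.Over (Spec (.of ℂ))]
    [HasDerivedCategory.{w'} (Coh X)] (L : Fin 3 → Coh X) : Prop :=
  Emb (Coh S) (Coh X) L

/-- `L` has global sections `s i`, such that `s i` is a basis of `L` on `U i`, where
`s j = (t i j) ^ n • s i` -/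
def IsGlN (X : Scheme.{0}) {ι : Type} (U : ι → X.Opens) (t : ∀ i, ι → OU X (U i)) (n : ℕ)
    (L : Coh X) : Prop :=
  IsGl X U (fun i j => t i j ^ n) L.obj

/-- `L = 𝒪(n)`: the powers `x i ^ n` are global sections of `L`, `x i ^ n` is a basis of `L` on
`D₊(x i)`, where `x j ^ n = (x j / x i) ^ n • x i ^ n` -/
def IsOn {A σ : Type} [CommRing A] [SetLike σ A] [AddSubgroupClass σ A] (𝒜 : ℕ → σ) [GradedRing 𝒜]
    {ι : Type} (x : ι → 𝒜 1) (n : ℕ) (L : Coh (Proj 𝒜)) : Prop :=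
  IsGlN (Proj 𝒜) (fun i => Proj.basicOpen 𝒜 (x i).1) (fun i j => frac 𝒜 (x i) (x j)) n L

variable {ν : ℕ} (I : Ideal (MvPolynomial (Fin ν) ℂ))

theorem X_mem (i : Fin ν) : Ideal.Quotient.mk I (X i) ∈ gr I 1 := ⟨X i, isHomogeneous_X _ _, rfl⟩

/-- the coordinates -/
noncomputable def xI (i : Fin ν) : gr I 1 := ⟨Ideal.Quotient.mk I (X i), X_mem I i⟩

/-- `L 0, L 1, L 2` are `𝒪, 𝒪(1), 𝒪(2)` -/
def Tw [Fact (IsHom I)] (L : Fin 3 → Coh (PI I)) : Prop :=
  ∀ n : Fin 3, IsOn (gr I) (xI I) n (L n)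

end Vale.Agent.P287Z
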