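import Vale.Agent.P287Z.S2
import Vale.Agent.P287Z.N.Pl

/-!
# The short definitions agree with the ones used in the proof
-/

open CategoryTheory Limits AlgebraicGeometry MvPolynomial Vale.Agent.P294Z Vale.Agent.P294.V

universe w w'

namespace Vale.Agent.P287Z.S2

section

variable {Y : Scheme.{0}} {L : Y.Modules} {U V : Y.Opens}

/-- functions as sections of the structure sheaf -/
noncomputable def ov (V : Y.Opens) : Γ(Y, V) ≃ₗ[Γ(Y, V)] Γ(OX Y, V) := LinearEquiv.refl _ _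

theorem rs_ov (h : V ≤ U) (r : Γ(Y, U)) : rs _ h (ov U r) = ov V (rf h r) := rfl

theorem app_ov (s : OX Y ⟶ L) (r : Γ(Y, V)) : s.app V (ov V r) = r • s.app V (ov V 1) := by
  rw [← s.app_smul, ← map_smul, smul_eq_mul, mul_one]

theorem rs_app_one (s : OX Y ⟶ L) (h : V ≤ U) :
    rs L h (s.app U (ov U 1)) = s.app V (ov V 1) := by
  rw [← app_rs, rs_ov, map_one]

theorem isGl_of {ι : Type} {U : ι → Y.Opens} {t : ∀ i, ι → Γ(Y, U i)} (y : ι → Γ(L, ⊤))
    (h1 : ∀ i, ∀ V ≤ U i, Function.Bijective fun r : Γ(Y, V) => r • rs L (V := V) le_top (y i))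
    (h2 : ∀ i j, rs L (V := U i) le_top (y j) = t i j • rs L le_top (y i)) : IsGl Y U t L :=
  ⟨fun i => mkHom (fun V => LinearMap.toSpanSingleton _ _ (rs L le_top (y i)) ∘ₗ
    (ov V).symm.toLinearMap) fun V T h s => by
      change _ = rs L h ((ov V).symm s • _)
      rw [rs_smul, rs_rs]
      rfl,
    fun i => ⟨h1 i, fun j => (one_smul _ _).trans (h2 i j)⟩⟩

theorem triv_of_gl {ν : ℕ} {W : Ideal (Gr.Sn ν)} {c : Gr.Chart Y W} {n : ℕ}
    (h : IsGl Y c.U (fun i j => c.ev i (X j) ^ n) L) (a : ℤ) (ha : a = -n) :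
    ∃ x : (c.G L).obj ⟨a⟩, c.Triv x := by
  obtain ⟨s, hs⟩ := h
  refine ⟨(⟨fun i => (s i).app _ (ov _ 1), fun i j V hi hj => ?_⟩ : c.Gs L a),
    fun i V hi => ?_⟩
  · have := congrArg (rs L hi) (((hs i).2 j).trans (app_ov (s i) (c.ev i (X j) ^ n)))
    rw [rs_smul, map_pow] at this
    rw [ha, zpow_neg, zpow_natCast, ← inv_pow, Units.val_pow_eq_pow_val]
    exact (rs_app_one (s j) hj).trans ((rs_app_one (s j) hi).symm.trans this)
  · have e : (fun r : Γ(Y, V) => r • rs L hi ((s i).app _ (ov _ 1))) = ap (s i) V :=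
      funext fun r => by rw [rs_app_one, ← app_ov]; rfl
    exact e ▸ (hs i).1 V hi

end

section

variable {A : Type} [CommRing A] [Algebra ℂ A] {𝒜 : ℕ → Submodule ℂ A} [GradedAlgebra 𝒜] {ν : ℕ}
  {W : Ideal (Gr.Sn ν)} {q : Gr.Sn ν →ₐ[ℂ] A} (P : Gr.Pres 𝒜 W q)

theorem isOn_iff (n : ℕ) (L : Coh (Proj 𝒜)) : IsOn 𝒜 (fun i => ⟨q (X i), P.X_mem i⟩) n L ↔
    IsGl _ P.chart.U (fun i j => P.chart.ev i (X j) ^ n) L.obj :=
  Iff.of_eq (congrArg (IsGl _ _ · L.obj) (funext fun i => funext fun j => congrArg (· ^ n)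
    (P.ev_away i (isHomogeneous_X ℂ j) (P.X_mem j)).symm))

theorem pw {R B : Type} [CommRing R] [CommRing B] (f : R →+* B) (a b : R) (u : B)
    (h : f b * u = 1) (n : ℕ) : f (a ^ n) = (f a * u) ^ n * f (b ^ n) := by
  rw [map_pow, map_pow, ← mul_pow, mul_assoc, mul_comm u, h, mul_one]

theorem isGl_twO (n : ℕ) :
    IsGl _ P.chart.U (fun i j => P.chart.ev i (X j) ^ n) (twO 𝒜 n) := by
  have k (i : Fin ν) : q (X i) ^ n ∈ 𝒜 n := by simpa using SetLike.pow_mem_graded n (P.X_mem i)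
  refine isGl_of (fun i => secO _ (isFr_alg (k i))) (fun i V hV => ?_) fun i j => valO_ext ?_
  · have := P.triv_eO n (-n) rfl i V hV
    rwa [show rs _ hV (P.chart.pr i (-n) (P.eO n (-n) rfl)) =
      rs (twO 𝒜 n) le_top (secO _ (isFr_alg (k i))) from valO_ext ?_] at this
    refine (res_xu _ le_rfl hV n).trans ?_
    rw [zpow_natCast, Units.val_pow_eq_pow_val, xu_val, ← map_pow]
    rfl
  · have := P.toFn_X i j le_rfl
    rw [rf_self] at this
    rw [valO_smul, map_pow (toFn 𝒜 _)]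
    refine Eq.trans ?_ (congrArg (· ^ n * _) this.symm)
    exact pw (algebraMap A (Fn 𝒜 (Proj.basicOpen 𝒜 (q (X i))))) _ _ _ (alg_xu _ le_rfl) n

end

variable {ν : ℕ} (I : Ideal (MvPolynomial (Fin ν) ℂ)) [Fact (IsHom I)]

theorem tw_Oc : Tw I fun n => Oc I (n : ℕ) := fun n =>
  (isOn_iff (pres I) n _).2 (isGl_twO (pres I) n)

theorem iso_Oc {n : ℕ} {L : Coh (PI I)} (h : IsOn (gr I) (xI I) n L) : Nonempty (L ≅ Oc I n) := by
  obtain ⟨x, hx⟩ := triv_of_gl ((isOn_iff (pres I) n L).1 h) (2 * -n / 2) (by lia)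
  exact ((Gr.Chart.Triv.tilde (pres I).hom (a := -n) hx).nonempty_iso
    (Gr.Chart.Triv.tilde (pres I).hom (a := -n)
      ((pres I).triv_eO n (2 * -n / 2) (by lia)))).map (ObjectProperty.isoMk _)

theorem ku_of [HasDerivedCategory.{w} (Coh (PI I))] {L : Fin 3 → Coh (PI I)} (h : Tw I L)
    {E : DbP I} (hE : ∀ i, Orth (L i) E) : Ku I E := by
  intro i h0 h2 k f
  obtain ⟨n, rfl⟩ : ∃ n : Fin 3, i = (n : ℕ) := ⟨⟨i.toNat, by omega⟩, by simp [h0]⟩
  obtain ⟨e⟩ := iso_Oc I (h n)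
  rw [← cancel_epi ((DerivedCategory.singleFunctor _ 0).map e.hom), comp_zero]
  exact hE n k _

/-- the statement with the short definitions -/
theorem of_thmP (h : N.Pl.ThmP.{w, w'}) (F : MvPolynomial (Fin 6) ℂ) [Fact (F.IsHomogeneous 3)]
    (hs : IsSmoothForm F) (W : Submodule ℂ (Fin 6 → ℂ)) (h3 : Module.finrank ℂ W = 3)
    (hW : ∀ z ∈ W, eval z F = 0) (hI : 1 ≤ topologicalKrullDim (PI I))
    [HasDerivedCategory.{w} (Coh (PI I))] [HasDerivedCategory.{w'} (Coh (PI (Ideal.span {F})))] :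
    (∃ L, Tw (Ideal.span {F}) L) ∧ ∀ L, Tw (Ideal.span {F}) L →
      KuEmb (PI I) (PI (Ideal.span {F})) L → IsRationalForm F := by
  refine ⟨⟨_, tw_Oc _⟩, ?_⟩
  rintro L hL ⟨Φ, _, _, ⟨_⟩, _, _, hΦ⟩
  exact h F hs W h3 hW I hI Φ fun E => ku_of _ hL (hΦ E)

end Vale.Agent.P287Z.S2
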